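import Mathlib.Geometry.Manifold.Instances.UnitsOfNormedAlgebra
import Vale.Agent.P253.Mfd.Defs

/-!
P253: holomorphic actions of `ℂ*` (not assumed to preserve the metric) and their attracting fixed
points.
-/

open scoped Manifold ContDiff Topology Bundle
open Complex

noncomputable section

namespace Vale.Agent.P253.CStar

variable (E : Type*) [NormedAddCommGroup E] [NormedSpace ℂ E]
  {M : Type*} [TopologicalSpace M] [ChartedSpace E M] [MulAction ℂˣ M]

variable (M) in
/-- the action `(a, x) ↦ a • x` of the group `ℂ*` on the complex manifold `M` is holomorphic -/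
def IsHolomorphicAction : Prop :=
  ContMDiff (𝓘(ℂ, ℂ).prod 𝓘(ℂ, E)) 𝓘(ℂ, E) 1 (fun q : ℂˣ × M => q.1 • q.2)

/-- `p` is an attracting fixed point of the action of `ℂ*`: `a • p = p` for all `a`, and the
differential of `x ↦ a • x` at `p` is `diag (a ^ m_1, ..., a ^ m_n)` in a suitable complex basis of
`T_p M`, with positive integers `m_j` -/
def IsAttractingFixedPoint (p : M) : Prop :=
  (∀ a : ℂˣ, a • p = p) ∧
  ∃ (b : Module.Basis (Fin (Module.finrank ℂ E)) ℂ E) (m : Fin (Module.finrank ℂ E) → ℕ),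
    (∀ j, 0 < m j) ∧
    ∀ (a : ℂˣ) j, (mfderiv 𝓘(ℂ, E) 𝓘(ℂ, E) (fun x : M => a • x) p : E → E) (b j) =
      (a : ℂ) ^ m j • b j

end Vale.Agent.P253.CStar
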