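import Mathlib.LinearAlgebra.Dimension.Finite
import Vale.Agent.P253.CStar.Defs
import Vale.Agent.P253.Bdl.B2

/-!
P253: on a manifold biholomorphic to `ℂⁿ` there is a holomorphic action of `ℂ*` with an attracting
fixed point (scalar multiplication).
-/

open scoped Manifold ContDiff Topology Bundle
open Complex

set_option linter.unusedSectionVars false

noncomputable section

namespace Vale.Agent.P253.CStar

variable {E : Type*} [NormedAddCommGroup E] [NormedSpace ℂ E] [FiniteDimensional ℂ E]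
  {M : Type*} [TopologicalSpace M] [ChartedSpace E M]

/-- scalar multiplication transported to `M` -/
@[reducible] def transported (F : M ≃ₘ^1⟮𝓘(ℂ, E), 𝓘(ℂ, E)⟯ E) : MulAction ℂˣ M where
  smul a x := F.symm ((a : ℂ) • F x)
  one_smul x := by
    change F.symm (((1 : ℂˣ) : ℂ) • F x) = x
    simp
  mul_smul a b x := by
    change F.symm (((a * b : ℂˣ) : ℂ) • F x) = F.symm ((a : ℂ) • F (F.symm ((b : ℂ) • F x)))
    rw [F.apply_symm_apply, smul_smul, Units.val_mul]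

theorem transported_smul (F : M ≃ₘ^1⟮𝓘(ℂ, E), 𝓘(ℂ, E)⟯ E) (a : ℂˣ) (x : M) :
    (transported F).toSMul.smul a x = F.symm ((a : ℂ) • F x) := rfl

theorem transported_holo (F : M ≃ₘ^1⟮𝓘(ℂ, E), 𝓘(ℂ, E)⟯ E) :
    @IsHolomorphicAction E _ _ M _ _ (transported F) := by
  let _ := transported F
  change ContMDiff (𝓘(ℂ, ℂ).prod 𝓘(ℂ, E)) 𝓘(ℂ, E) 1
    (fun q : ℂˣ × M => F.symm ((q.1 : ℂ) • F q.2))
  have h1 : ContMDiff (𝓘(ℂ, ℂ).prod 𝓘(ℂ, E)) 𝓘(ℂ, ℂ) 1 (fun q : ℂˣ × M => (q.1 : ℂ)) :=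
    Units.contMDiff_val.comp contMDiff_fst
  have h2 : ContMDiff (𝓘(ℂ, ℂ).prod 𝓘(ℂ, E)) 𝓘(ℂ, E) 1 (fun q : ℂˣ × M => F q.2) :=
    F.contMDiff.comp contMDiff_snd
  exact F.symm.contMDiff.comp (h1.smul h2)

theorem transported_attracting (F : M ≃ₘ^1⟮𝓘(ℂ, E), 𝓘(ℂ, E)⟯ E) :
    @IsAttractingFixedPoint E _ _ M _ _ (transported F) (F.symm 0) := by
  let _ := transported F
  refine ⟨fun a => ?_, Module.finBasis ℂ E, fun _ => 1, fun _ => one_pos, fun a j => ?_⟩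
  · change F.symm ((a : ℂ) • F (F.symm 0)) = F.symm 0
    rw [F.apply_symm_apply, smul_zero]
  · set v := Module.finBasis ℂ E j
    rw [pow_one]
    let T1 : E →L[ℂ] E := mfderiv 𝓘(ℂ, E) 𝓘(ℂ, E) F (F.symm 0)
    let T2 : E →L[ℂ] E := mfderiv 𝓘(ℂ, E) 𝓘(ℂ, E) F.symm 0
    have h1 : HasMFDerivAt 𝓘(ℂ, E) 𝓘(ℂ, E) F (F.symm 0) T1 :=
      ((F.contMDiff.mdifferentiable (by simp)) _).hasMFDerivAt
    have h2 : ∀ y : E, y = 0 → HasMFDerivAt 𝓘(ℂ, E) 𝓘(ℂ, E) F.symm y T2 := by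
      rintro _ rfl
      exact ((F.symm.contMDiff.mdifferentiable (by simp)) _).hasMFDerivAt
    have hF0 : F (F.symm 0) = 0 := F.apply_symm_apply 0
    have h3 : HasMFDerivAt 𝓘(ℂ, E) 𝓘(ℂ, E) (F.symm ∘ F) (F.symm 0) (T2.comp T1) :=
      (h2 _ hF0).comp _ h1
    have h4 : (F.symm ∘ F : M → M) = id := funext fun x => F.symm_apply_apply x
    rw [h4] at h3
    have h5 : (T2.comp T1 : E →L[ℂ] E) = ContinuousLinearMap.id ℂ E :=
      hasMFDerivAt_unique h3 (hasMFDerivAt_id _)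
    have h6 : HasMFDerivAt 𝓘(ℂ, E) 𝓘(ℂ, E) (fun z : E => (a : ℂ) • z) (F (F.symm 0))
        ((a : ℂ) • ContinuousLinearMap.id ℂ E) :=
      ((hasFDerivAt_id (𝕜 := ℂ) (F (F.symm 0))).const_smul (a : ℂ)).hasMFDerivAt
    have h7 : HasMFDerivAt 𝓘(ℂ, E) 𝓘(ℂ, E) (F.symm ∘ (fun z : E => (a : ℂ) • z) ∘ F) (F.symm 0)
        (T2.comp (((a : ℂ) • ContinuousLinearMap.id ℂ E).comp T1)) :=
      (h2 _ (by simp [hF0])).comp _ (h6.comp _ h1)
    have h8 : (mfderiv 𝓘(ℂ, E) 𝓘(ℂ, E) (fun x : M => a • x) (F.symm 0) : E →L[ℂ] E) =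
        T2.comp (((a : ℂ) • ContinuousLinearMap.id ℂ E).comp T1) := h7.mfderiv
    have h9 : (mfderiv 𝓘(ℂ, E) 𝓘(ℂ, E) (fun x : M => a • x) (F.symm 0) : E →L[ℂ] E) v =
        (a : ℂ) • (T2.comp T1) v := by
      rw [h8]
      change T2 ((a : ℂ) • T1 v) = (a : ℂ) • T2 (T1 v)
      exact map_smul T2 _ _
    rw [h5] at h9
    exact h9

/-- The converse: `ℂⁿ` has a holomorphic action of `ℂ*` with an attracting fixed point. -/
theorem converse (F : M ≃ₘ^1⟮𝓘(ℂ, E), 𝓘(ℂ, E)⟯ E) :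
    ∃ A : MulAction ℂˣ M, @IsHolomorphicAction E _ _ M _ _ A ∧
      ∃ p : M, @IsAttractingFixedPoint E _ _ M _ _ A p :=
  ⟨transported F, transported_holo F, F.symm 0, transported_attracting F⟩

end Vale.Agent.P253.CStar
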