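import Vale.Agent.P253.CStar.Global

/-!
P253: uniformization of manifolds with a holomorphic action of `ℂ*` which has an attracting fixed
point: final form.
-/

open scoped Manifold ContDiff Topology Bundle
open Set Metric Complex Filter Bundle IsManifold Manifold Vale.Agent.P253.Mfd

set_option maxSynthPendingDepth 3
set_option linter.unusedSectionVars false

noncomputable section

namespace Vale.Agent.P253.CStar

/-- `exp : ℂ → ℂ*` -/
def expU (ζ : ℂ) : ℂˣ := Units.mk0 (exp ζ) (exp_ne_zero ζ)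

theorem expU_val (ζ : ℂ) : (expU ζ : ℂ) = exp ζ := rfl

theorem expU_zero : expU 0 = 1 := Units.ext (by simp [expU_val])

theorem expU_add (s t : ℂ) : expU (s + t) = expU s * expU t :=
  Units.ext (by simp [expU_val, exp_add])

theorem expU_period : expU (2 * Real.pi * I) = 1 := Units.ext (by simp [expU_val])

theorem expU_log (a : ℂˣ) : expU (log a) = a := Units.ext (by
  rw [expU_val, exp_log a.ne_zero])

theorem contMDiff_expU : ContMDiff 𝓘(ℂ, ℂ) 𝓘(ℂ, ℂ) 1 expU := by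
  apply ContMDiff.of_comp_isOpenEmbedding Units.isOpenEmbedding_val
  exact contDiff_exp.contMDiff

variable {E : Type*} [NormedAddCommGroup E] [NormedSpace ℂ E] [FiniteDimensional ℂ E]
  {M : Type*} [MetricSpace M] [ChartedSpace E M] [IsManifold 𝓘(ℂ, E) 1 M]
  {p : M}

theorem holC_of_action [MulAction ℂˣ M] (h : IsHolomorphicAction E M) :
    HolC E (fun (ζ : ℂ) (x : M) => expU ζ • x) where
  zero x := by rw [expU_zero, one_smul]
  add s t x := by rw [expU_add, mul_smul]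
  period x := by rw [expU_period, one_smul]
  holo := by
    have h1 : ContMDiff (𝓘(ℂ, ℂ).prod 𝓘(ℂ, E)) (𝓘(ℂ, ℂ).prod 𝓘(ℂ, E)) 1
        (fun q : ℂ × M => (expU q.1, q.2)) :=
      (contMDiff_expU.comp contMDiff_fst).prodMk contMDiff_snd
    exact ContMDiff.comp h h1

theorem weights_LE [MulAction ℂˣ M] {b : Module.Basis (Fin (Module.finrank ℂ E)) ℂ E}
    {m : Fin (Module.finrank ℂ E) → ℕ}
    (hw : ∀ (a : ℂˣ) j, (mfderiv 𝓘(ℂ, E) 𝓘(ℂ, E) (fun x : M => a • x) p : E → E) (b j) =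
      (a : ℂ) ^ m j • b j) (ζ : ℂ) (v : E) :
    (mfderiv 𝓘(ℂ, E) 𝓘(ℂ, E) (fun x : M => expU ζ • x) p : E → E) v =
      LE (b.equivFun.toContinuousLinearEquiv) (fun j => (m j : ℝ)) ζ v := by
  set φ : E ≃L[ℂ] (Fin (Module.finrank ℂ E) → ℂ) := b.equivFun.toContinuousLinearEquiv with hφ
  let T₀ : E →L[ℂ] E := mfderiv 𝓘(ℂ, E) 𝓘(ℂ, E) (fun x : M => expU ζ • x) p
  let T : E →ₗ[ℂ] E := T₀.toLinearMap
  let L : E →ₗ[ℂ] E := (LEL φ (fun j => (m j : ℝ)) ζ).toLinearMap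
  have hTL : T = L := by
    apply b.ext
    intro j
    apply ext_coord (φ := φ)
    intro k
    have h1 : T (b j) = (exp ζ) ^ m j • b j := hw (expU ζ) j
    have h2 : φ (L (b j)) k = Complex.exp (ζ * ((m k : ℝ) : ℂ)) * φ (b j) k := LE_coord _ _ _
    rw [h1, h2, map_smul, Pi.smul_apply, smul_eq_mul]
    have h3 : φ (b j) k = if j = k then 1 else 0 := by
      simp [hφ]
    rw [h3]
    by_cases hjk : j = k
    · subst hjk
      rw [if_pos rfl, ← exp_nat_mul]
      congr 2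
      push_cast; ring
    · rw [if_neg hjk]; simp
  exact congrArg (fun S : E →ₗ[ℂ] E => S v) hTL

variable [IsManifold 𝓘(ℝ, E) ∞ M]
  [RiemannianBundle (fun x : M => TangentSpace 𝓘(ℝ, E) x)]
  [IsContMDiffRiemannianBundle 𝓘(ℝ, E) ∞ E (fun x : M => TangentSpace 𝓘(ℝ, E) x)]
  [IsRiemannianManifold 𝓘(ℝ, E) M]

/-- Yau's conjecture for complex manifolds with an action of `ℂ*` with an attracting fixed point -/
theorem main_action (hK : IsKahler E M) [CompleteSpace M] [NoncompactSpace M] [ConnectedSpace M]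
    (hnn : ∀ x : M, NonnegBisectionalAt E x) [MulAction ℂˣ M] (h : IsHolomorphicAction E M)
    (hp : IsAttractingFixedPoint E p) (hpos : PosBisectionalAt E p) :
    ∃ F : M ≃ₘ^1⟮𝓘(ℂ, E), 𝓘(ℂ, E)⟯ E, F p = 0 ∧
      (∀ v : E, (mfderiv 𝓘(ℂ, E) 𝓘(ℂ, E) F p : E → E) v = v) ∧
      (∀ (a : ℂˣ) (x : M), F (a • x) =
        (mfderiv 𝓘(ℂ, E) 𝓘(ℂ, E) (fun y : M => a • y) p : E → E) (F x)) ∧
      ∃ C > 0, ∀ (x : M) (R : ℝ), (∀ a : ℂˣ, ‖(a : ℂ)‖ = 1 → dist p (a • x) ≤ R) →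
        ‖F x‖ ≤ C * Real.exp (C * R) := by
  obtain ⟨hfix, b, m, hm, hw⟩ := hp
  obtain ⟨F, h0, h1, h2, C, hC, h3⟩ := main_psi hK hnn hpos (holC_of_action h) (fun ζ => hfix _)
    b.equivFun.toContinuousLinearEquiv (m := fun j => (m j : ℝ))
    (fun j => by exact_mod_cast hm j) (weights_LE hw)
  refine ⟨F, h0, h1, fun a x => ?_, C, hC, fun x R hR => h3 x R fun θ => hR _ ?_⟩
  swap
  · rw [expU_val, norm_exp_ofReal_mul_I]
  have h3 := h2 (log a) x
  simp only [expU_log] at h3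
  have h4 := weights_LE hw (log a) (F x)
  rw [expU_log] at h4
  rw [h3, h4]

end Vale.Agent.P253.CStar
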