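import Vale.Agent.P253.CStar.Local

/-! The real half of a `C^*`-action in a circle-equivariant chart. -/

open scoped Manifold ContDiff Topology Bundle
open Set Metric Complex Filter Bundle IsManifold

set_option maxSynthPendingDepth 3
set_option linter.unusedSectionVars false

noncomputable section

namespace Vale.Agent.P253.CStar

open Vale.Agent.P253.Mfd

/-- two holomorphic functions on a disc which agree on the imaginary axis are equal -/
theorem eqOn_of_axis {F : Type*} [NormedAddCommGroup F] [NormedSpace ℂ F] [CompleteSpace F]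
    {g h : ℂ → F} {ε : ℝ} (hε : 0 < ε) (hg : DifferentiableOn ℂ g (ball 0 ε))
    (hh : DifferentiableOn ℂ h (ball 0 ε))
    (heq : ∀ θ : ℝ, |θ| < ε → g (θ * I) = h (θ * I)) : EqOn g h (ball 0 ε) := by
  have h1 := hg.analyticOnNhd isOpen_ball
  have h2 := hh.analyticOnNhd isOpen_ball
  refine h1.eqOn_of_preconnected_of_frequently_eq h2 (convex_ball (0:ℂ) ε).isPreconnected
    (mem_ball_self hε) ?_
  have h3 : Tendsto (fun θ : ℝ => (θ:ℂ) * I) (𝓝[>] 0) (𝓝[≠] 0) := by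
    rw [tendsto_nhdsWithin_iff]
    constructor
    · have hc : Continuous (fun θ : ℝ => (θ:ℂ) * I) := by fun_prop
      have := hc.tendsto 0
      simp only [ofReal_zero, zero_mul] at this
      exact this.mono_left nhdsWithin_le_nhds
    · filter_upwards [self_mem_nhdsWithin] with θ hθ
      have : (θ:ℂ) ≠ 0 := by exact_mod_cast (ne_of_gt hθ)
      simp [this]
  refine h3.frequently (Eventually.frequently ?_)
  filter_upwards [Ioo_mem_nhdsGT hε] with θ hθ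
  exact heq θ (by rw [abs_of_pos hθ.1]; exact hθ.2)

/-- entire functions which agree on the imaginary axis are equal -/
theorem eq_of_axis {F : Type*} [NormedAddCommGroup F] [NormedSpace ℂ F] [CompleteSpace F]
    {g h : ℂ → F} (hg : Differentiable ℂ g) (hh : Differentiable ℂ h)
    (heq : ∀ θ : ℝ, g (θ * I) = h (θ * I)) (ζ : ℂ) : g ζ = h ζ :=
  eqOn_of_axis (ε := ‖ζ‖ + 1) (by positivity) hg.differentiableOn hh.differentiableOn
    (fun θ _ => heq θ) (by simp)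

variable {E : Type*} [NormedAddCommGroup E] [NormedSpace ℂ E] [FiniteDimensional ℂ E]
  {M : Type*} [TopologicalSpace M] [ChartedSpace E M] [IsManifold 𝓘(ℂ, E) 1 M]
  {ι : Type*} [Fintype ι] {φ : E ≃L[ℂ] (ι → ℂ)} {m : ι → ℝ}

/-- real times near `0` in a circle-equivariant chart -/
theorem loc_near {ψ : ℂ → M → M} (h0 : ∀ x, ψ 0 x = x)
    (hc : Continuous fun q : ℂ × M => ψ q.1 q.2)
    (hz : ∀ x, MDifferentiable 𝓘(ℂ, ℂ) 𝓘(ℂ, E) (fun ζ => ψ ζ x))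
    {e₀ : OpenPartialHomeomorph M E} (he₀ : e₀ ∈ maximalAtlas 𝓘(ℂ, E) 1 M)
    (hequiv : ∀ θ : ℝ, ∀ x ∈ e₀.source, ψ (θ * I) x ∈ e₀.source ∧
      e₀ (ψ (θ * I) x) = LE φ m (θ * I) (e₀ x)) {x₁ : M} (hx₁ : x₁ ∈ e₀.source) :
    ∃ ε > 0, ∃ N ∈ 𝓝 x₁, ∀ x ∈ N, x ∈ e₀.source → ∀ ζ ∈ ball (0:ℂ) ε,
      ψ ζ x ∈ e₀.source ∧ e₀ (ψ ζ x) = LE φ m ζ (e₀ x) := by
  have hCE : CompleteSpace E := FiniteDimensional.complete ℂ E
  have h1 : ∀ᶠ q : ℂ × M in 𝓝 (0, x₁), ψ q.1 q.2 ∈ e₀.source := by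
    apply hc.continuousAt.eventually
    apply e₀.open_source.mem_nhds
    simpa only [h0] using hx₁
  rw [nhds_prod_eq] at h1
  obtain ⟨P, hP, Q, hQ, hPQ⟩ := Filter.eventually_prod_iff.1 h1
  obtain ⟨ε, hε, hball⟩ := Metric.eventually_nhds_iff_ball.1 hP
  refine ⟨ε, hε, {x | Q x}, hQ, fun x hx hxs => ?_⟩
  have hin : ∀ ζ ∈ ball (0:ℂ) ε, ψ ζ x ∈ e₀.source := fun ζ hζ => hPQ (hball ζ hζ) hx
  have hd : DifferentiableOn ℂ (fun ζ => e₀ (ψ ζ x)) (ball 0 ε) := by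
    intro ζ hζ
    have h2 : MDifferentiableAt 𝓘(ℂ, E) 𝓘(ℂ, E) e₀ (ψ ζ x) :=
      ((contMDiffOn_of_mem_maximalAtlas he₀).contMDiffAt
        (e₀.open_source.mem_nhds (hin ζ hζ))).mdifferentiableAt (by simp)
    have h3 := h2.comp ζ (hz x ζ)
    exact h3.differentiableAt.differentiableWithinAt
  have heq := eqOn_of_axis hε hd (differentiable_LE (φ := φ) (m := m) (e₀ x)).differentiableOn
    (fun θ _ => (hequiv θ x hxs).2)
  exact fun ζ hζ => ⟨hin ζ hζ, heq hζ⟩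

/-- negative real times in a circle-equivariant chart onto a polydisc -/
theorem loc_neg_of {ψ : ℂ → M → M} (h0 : ∀ x, ψ 0 x = x)
    (hadd : ∀ ζ ζ' x, ψ (ζ + ζ') x = ψ ζ (ψ ζ' x))
    (hc : Continuous fun q : ℂ × M => ψ q.1 q.2)
    (hz : ∀ x, MDifferentiable 𝓘(ℂ, ℂ) 𝓘(ℂ, E) (fun ζ => ψ ζ x)) (hm : ∀ j, 0 < m j)
    {e₀ : OpenPartialHomeomorph M E} (he₀ : e₀ ∈ maximalAtlas 𝓘(ℂ, E) 1 M) {δ : ℝ}
    (htgt : e₀.target = {z | ‖φ z‖ < δ})
    (hequiv : ∀ θ : ℝ, ∀ x ∈ e₀.source, ψ (θ * I) x ∈ e₀.source ∧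
      e₀ (ψ (θ * I) x) = LE φ m (θ * I) (e₀ x)) :
    ∀ t : ℝ, t ≤ 0 → ∀ x ∈ e₀.source, ψ t x ∈ e₀.source ∧ e₀ (ψ t x) = LE φ m t (e₀ x) := by
  intro t ht x hx
  set z := e₀ x with hzdef
  have hzn : ‖φ z‖ < δ := by
    have := e₀.map_source hx
    rw [htgt] at this
    exact this
  have hneg : ∀ s : ℝ, 0 ≤ s → LE φ m ((-s : ℝ) : ℂ) z ∈ e₀.target := by
    intro s hs
    rw [htgt]
    exact (norm_LE_nonpos' hm (by linarith only [hs]) z).trans_lt hzn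
  have key : ∀ s : ℝ, 0 ≤ s → (ψ ((-s : ℝ) : ℂ) x ∈ e₀.source ∧
      e₀ (ψ ((-s : ℝ) : ℂ) x) = LE φ m ((-s : ℝ) : ℂ) z) := by
    intro T hT
    refine interval_propagate (P := fun s : ℝ => ψ ((-s : ℝ) : ℂ) x ∈ e₀.source ∧
      e₀ (ψ ((-s : ℝ) : ℂ) x) = LE φ m ((-s : ℝ) : ℂ) z) hT (fun t₁ ht₁ => ?_) ?_
    · have hx₁ : e₀.symm (LE φ m ((-t₁ : ℝ) : ℂ) z) ∈ e₀.source := e₀.map_target (hneg t₁ ht₁.1)
      obtain ⟨ε, hε, N, hN, hloc⟩ := loc_near h0 hc hz he₀ hequiv hx₁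
      have hcont : ContinuousOn (fun s : ℝ => e₀.symm (LE φ m ((-s : ℝ) : ℂ) z)) (Icc 0 T) := by
        refine e₀.continuousOn_symm.comp ?_ (fun s hs => hneg s hs.1)
        have h2 : Continuous (fun s : ℝ => (((-s : ℝ) : ℂ), z)) :=
          (continuous_ofReal.comp continuous_neg).prodMk continuous_const
        exact (continuous_LE.comp h2).continuousOn
      have hev := (hcont t₁ ht₁).eventually hN
      rw [eventually_nhdsWithin_iff] at hev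
      obtain ⟨ε₂, hε₂, hb⟩ := Metric.eventually_nhds_iff.1 hev
      refine ⟨min ε₂ (ε / 2), by positivity, fun s hs s' hs' hst hs't hss' hPs => ?_⟩
      have h3 : e₀.symm (LE φ m ((-s : ℝ) : ℂ) z) = ψ ((-s : ℝ) : ℂ) x := by
        rw [← hPs.2, e₀.left_inv hPs.1]
      have h4 : ψ ((-s : ℝ) : ℂ) x ∈ N := by
        rw [← h3]
        exact hb (by rw [Real.dist_eq]; exact hst.trans_le (min_le_left _ _)) hs
      have h5 : ((-(s' - s) : ℝ) : ℂ) ∈ ball (0:ℂ) ε := by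
        rw [mem_ball_zero_iff, norm_real, Real.norm_eq_abs, abs_neg]
        have h6 := hst.trans_le (min_le_right _ _)
        have h7 := hs't.trans_le (min_le_right _ _)
        rw [abs_lt] at h6 h7 ⊢
        exact ⟨by linarith only [h6.1, h6.2, h7.1, h7.2], by linarith only [h6.1, h6.2, h7.1, h7.2]⟩
      have h6 := hloc _ h4 hPs.1 _ h5
      rw [← hadd, hPs.2, ← LE_add] at h6
      have h7 : ((-(s' - s) : ℝ) : ℂ) + ((-s : ℝ) : ℂ) = ((-s' : ℝ) : ℂ) := by push_cast; ring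
      rw [h7] at h6
      exact h6
    · simp only [neg_zero, ofReal_zero, h0, LE_zero]
      exact ⟨hx, hzdef.symm⟩
  have := key (-t) (by linarith only [ht])
  rwa [neg_neg] at this

section

variable {M : Type*} [MetricSpace M] [ChartedSpace E M] [IsManifold 𝓘(ℂ, E) 1 M] {ψ : ℂ → M → M}

theorem HolC.orbit_mdiff (h : HolC E ψ) (x : M) :
    MDifferentiable 𝓘(ℂ, ℂ) 𝓘(ℂ, E) (fun ζ => ψ ζ x) := by
  have h1 : ContMDiff 𝓘(ℂ, ℂ) 𝓘(ℂ, E) 1 (fun ζ => ψ ζ x) :=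
    h.holo.comp (contMDiff_id.prodMk contMDiff_const)
  exact h1.mdifferentiable (by simp)

/-- negative real times in a circle-equivariant chart onto a polydisc -/
theorem loc_neg (h : HolC E ψ) {e₀ : OpenPartialHomeomorph M E}
    (he₀ : e₀ ∈ maximalAtlas 𝓘(ℂ, E) 1 M) {δ : ℝ}
    (htgt : e₀.target = {z | ‖φ z‖ < δ}) (hm : ∀ j, 0 < m j)
    (hequiv : ∀ θ : ℝ, ∀ x ∈ e₀.source, ψ (θ * I) x ∈ e₀.source ∧
      e₀ (ψ (θ * I) x) = LE φ m (θ * I) (e₀ x)) :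
    ∀ t : ℝ, t ≤ 0 → ∀ x ∈ e₀.source, ψ t x ∈ e₀.source ∧ e₀ (ψ t x) = LE φ m t (e₀ x) :=
  loc_neg_of h.zero h.add h.cont h.orbit_mdiff hm he₀ htgt hequiv

/-- an equivariance under the circle extends to all complex times -/
theorem equivariant_of_circle (h : HolC E ψ) {F : M → E}
    (hF : MDifferentiable 𝓘(ℂ, E) 𝓘(ℂ, E) F)
    (hcirc : ∀ (θ : ℝ) (x : M), F (ψ (θ * I) x) = LE φ m (θ * I) (F x)) (ζ : ℂ) (x : M) :
    F (ψ ζ x) = LE φ m ζ (F x) := by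
  have hCE : CompleteSpace E := FiniteDimensional.complete ℂ E
  have h1 : Differentiable ℂ (fun ζ => F (ψ ζ x)) := by
    intro ζ
    have h2 := (hF (ψ ζ x)).comp ζ (h.orbit_mdiff x ζ)
    exact h2.differentiableAt
  exact eq_of_axis h1 (differentiable_LE (φ := φ) (m := m) (F x)) (fun θ => hcirc θ x) ζ

end

end Vale.Agent.P253.CStar
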