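import Vale.Agent.P253.CStar.Growth

/-! Growth of the global chart of a holomorphic `C^*`-action. -/

open scoped Manifold ContDiff Topology Bundle
open Set Metric Complex Filter Bundle IsManifold

set_option maxSynthPendingDepth 3
set_option linter.unusedSectionVars false

noncomputable section

namespace Vale.Agent.P253.CStar

open Vale.Agent.P253.Mfd

variable {E : Type*} [NormedAddCommGroup E] [NormedSpace ℂ E] [FiniteDimensional ℂ E]
  {M : Type*} [MetricSpace M] [ChartedSpace E M]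
  [IsManifold 𝓘(ℂ, E) 1 M] [IsManifold 𝓘(ℝ, E) ∞ M]
  [RiemannianBundle (fun x : M => TangentSpace 𝓘(ℝ, E) x)]
  [IsContMDiffRiemannianBundle 𝓘(ℝ, E) ∞ E (fun x : M => TangentSpace 𝓘(ℝ, E) x)]
  [IsRiemannianManifold 𝓘(ℝ, E) M]
  {ι : Type*} [Fintype ι]

/-- The equivariant global chart grows at most exponentially in the radius of the circle orbits. -/
theorem upper_growth (hK : IsKahler E M) [CompleteSpace M]
    [NoncompactSpace M] [ConnectedSpace M]
    (hnn : ∀ x : M, NonnegBisectionalAt E x) {p : M} (hpos : PosBisectionalAt E p)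
    {ρ : ℝ → M → M} (_hc₀ : Continuous fun q : ℝ × M => ρ q.1 q.2)
    (hper : ∀ θ x, ρ (θ + 2 * Real.pi) x = ρ θ x) {e : OpenPartialHomeomorph M E}
    (he : e ∈ maximalAtlas 𝓘(ℂ, E) 1 M) (htgt : e.target = univ)
    (hps : p ∈ e.source) (hep : e p = 0) {φ : E ≃L[ℂ] (ι → ℂ)} {m : ι → ℝ} (hm : ∀ j, 0 < m j)
    (heq : ∀ (θ : ℝ) (z : E), ρ θ (e.symm z) = e.symm (LE φ m (θ * I) z)) :
    ∃ C : ℝ, 0 < C ∧ ∀ x ∈ e.source, ∀ R : ℝ, (∀ θ : ℝ, dist p (ρ θ x) ≤ R) →
      ‖φ (e x)‖ ≤ C * Real.exp (C * R) := by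
  have hprop : ProperSpace M := properSpace_riemannian E M
  have her := mem_maximalAtlas_real he
  obtain ⟨ρ₀, hρ₀, c, hc, L₀, hL₀, hstr⟩ := levi_strict hK hnn hpos
  have hesc : Continuous e.symm := by
    rw [← continuousOn_univ, ← htgt]
    exact e.continuousOn_symm
  have hes0 : e.symm 0 = p := by rw [← hep, e.left_inv hps]
  have hφ0 : Continuous (fun z : E => ‖φ z‖) := φ.continuous.norm
  -- periodicity of the linear action
  have hLper0 : ∀ z : E, LE φ m (2 * Real.pi * I) z = z := by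
    intro z
    have h1 := heq (0 + 2 * Real.pi) z
    rw [hper, heq] at h1
    have hu : ∀ w : E, w ∈ e.symm.source := fun w => by
      rw [OpenPartialHomeomorph.symm_source, htgt]
      exact mem_univ _
    have h2 := e.symm.injOn (hu _) (hu _) h1
    have e1 : ((0 + 2 * Real.pi : ℝ) : ℂ) * I = 2 * Real.pi * I := by push_cast; ring
    rw [e1, ofReal_zero, zero_mul, LE_zero] at h2
    exact h2.symm
  have hLper : ∀ (z : E) (ζ : ℂ), LE φ m (ζ + 2 * Real.pi * I) z = LE φ m ζ z := by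
    intro z ζ
    rw [LE_add, hLper0]
  obtain ⟨δ, hδ, hball⟩ : ∃ δ > 0, ∀ z : E, ‖φ z‖ ≤ δ → e.symm z ∈ ball p ρ₀ := by
    have h1 : φ.symm ⁻¹' (e.symm ⁻¹' (ball p ρ₀)) ∈ 𝓝 (0 : ι → ℂ) := by
      apply (hesc.comp φ.symm.continuous).continuousAt.preimage_mem_nhds
      simp only [Function.comp_apply, map_zero, hes0]
      exact ball_mem_nhds p hρ₀
    obtain ⟨δ, hδ, h2⟩ := Metric.nhds_basis_closedBall.mem_iff.1 h1
    refine ⟨δ, hδ, fun z hz => ?_⟩
    have h3 := h2 (show φ z ∈ closedBall 0 δ by simpa using hz)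
    simpa using h3
  -- lower bound for the speed
  set Mm : ℝ := ∑ j, m j with hMm
  obtain ⟨N₀, hN₀, hNlow⟩ : ∃ N₀ > 0, ∀ z : E,
      Real.exp (-Mm) * δ ≤ ‖φ z‖ → ‖φ z‖ ≤ δ → N₀ ≤ chartG e z (AE φ m z) (AE φ m z) := by
    set P : Set E := {z | ‖φ z‖ ≤ δ} ∩ {z | Real.exp (-Mm) * δ ≤ ‖φ z‖}
      with hP
    have hPc : IsCompact P := (isCompact_coordBall φ δ).inter_right
      (isClosed_le continuous_const hφ0)
    have hcont : Continuous (fun z => chartG e z (AE φ m z) (AE φ m z)) := by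
      have h1 : Continuous (chartG e) := by
        rw [← continuousOn_univ, ← htgt]
        exact (contDiffOn_chartG her).continuousOn
      exact (h1.clm_apply continuous_AE).clm_apply continuous_AE
    rcases P.eq_empty_or_nonempty with hemp | hne
    · refine ⟨1, one_pos, fun z h1 h2 => ?_⟩
      have : z ∈ P := ⟨h2, h1⟩
      simp [hemp] at this
    · obtain ⟨z₀, hz₀, hmin⟩ := hPc.exists_isMinOn hne hcont.continuousOn
      refine ⟨chartG e z₀ (AE φ m z₀) (AE φ m z₀), ?_, fun z h1 h2 => hmin ⟨h2, h1⟩⟩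
      apply chartG_pos her (htgt ▸ mem_univ _)
      apply AE_ne_zero hm
      intro h0
      have h1 : Real.exp (-Mm) * δ ≤ ‖φ z₀‖ := hz₀.2
      rw [h0, map_zero, norm_zero] at h1
      have : 0 < Real.exp (-Mm) * δ := by positivity
      linarith only [h1, this]
  have hMm0 : 0 ≤ Mm := Finset.sum_nonneg fun j _ => (hm j).le
  have hsplit : ∀ (t θ : ℝ) (z : E), ‖φ (LE φ m (t + θ * I) z)‖ = ‖φ (LE φ m (t:ℂ) z)‖ := by
    intro t θ z
    rw [add_comm, LE_add, norm_LE_I]
  -- growth along the rays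
  have hgrow : ∀ z : E, ‖φ z‖ = δ → ∀ T : ℝ, 0 ≤ T → ∀ R : ℝ,
      (∀ θ : ℝ, dist p (e.symm (LE φ m (T + θ * I) z)) ≤ R) →
      c * N₀ * T / 2 ≤ R + ρ₀ := by
    intro z hz T hT R hR
    refine growth hK hnn (exists_far p) hρ₀ hc hstr he (w := fun ζ => LE φ m ζ z)
      (differentiable_LE z) (fun ζ => htgt ▸ mem_univ _) (hLper z)
      (fun t ht θ => hball _ ?_) (N₀ := N₀) (fun t ht θ => ?_) hT hR
    · rw [hsplit]
      exact (norm_LE_nonpos' hm ht z).trans hz.le
    · rw [deriv_LE]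
      apply hNlow
      · -- lower bound of the norm
        rw [hsplit]
        have h2 : z = LE φ m ((-t : ℝ) : ℂ) (LE φ m (t:ℂ) z) := by
          rw [← LE_add]; push_cast; rw [neg_add_cancel, LE_zero]
        have h3 : ‖φ z‖ ≤ Real.exp ((-t) * Mm) * ‖φ (LE φ m (t:ℂ) z)‖ := by
          conv_lhs => rw [h2]
          exact norm_LE_nonneg hm (by linarith only [ht, ht.2]) _
        have h4 : Real.exp ((-t) * Mm) ≤ Real.exp Mm := by
          apply Real.exp_le_exp.2
          nlinarith only [ht, hMm0, ht.1]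
        have h5 : δ ≤ Real.exp Mm * ‖φ (LE φ m (t:ℂ) z)‖ := by
          rw [← hz]
          exact h3.trans (by gcongr)
        calc Real.exp (-Mm) * δ ≤ Real.exp (-Mm) * (Real.exp Mm * ‖φ (LE φ m (t:ℂ) z)‖) := by
              gcongr
          _ = ‖φ (LE φ m (t:ℂ) z)‖ := by
            rw [← mul_assoc, ← Real.exp_add, neg_add_cancel, Real.exp_zero, one_mul]
      · rw [hsplit]
        exact (norm_LE_nonpos' hm ht.2 z).trans hz.le
  set κ : ℝ := 2 * Mm / (c * N₀) with hκ
  have hκ0 : 0 ≤ κ := by positivity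
  set C₁ : ℝ := Real.exp (κ * ρ₀) * δ with hC₁
  have hC₁0 : 0 < C₁ := by positivity
  refine ⟨κ + C₁, by positivity, fun x hxs R hxR => ?_⟩
  have hR0 : 0 ≤ R := dist_nonneg.trans (hxR 0)
  have hfin : ‖φ (e x)‖ ≤ C₁ * Real.exp (κ * R) := by
    have h1 : 1 ≤ Real.exp (κ * ρ₀) := Real.one_le_exp (by positivity)
    have h2 : 1 ≤ Real.exp (κ * R) := Real.one_le_exp (by positivity)
    by_cases hsmall : ‖φ (e x)‖ ≤ δ
    · refine hsmall.trans ?_
      calc δ = 1 * δ * 1 := by ring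
        _ ≤ Real.exp (κ * ρ₀) * δ * Real.exp (κ * R) := by gcongr
    · push Not at hsmall
      obtain ⟨T, hT, hTn⟩ := exists_LE_norm_eq hm hδ hsmall
      set z := LE φ m ((-T : ℝ) : ℂ) (e x) with hz
      have hback : LE φ m (T:ℂ) z = e x := by
        rw [hz, ← LE_add]; push_cast; rw [add_neg_cancel, LE_zero]
      have h3 := hgrow z hTn T hT R (fun θ => by
        rw [add_comm, LE_add, hback, ← heq, e.left_inv hxs]
        exact hxR θ)
      have h5 : T * Mm ≤ κ * ρ₀ + κ * R := by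
        have h6 : T ≤ 2 * (R + ρ₀) / (c * N₀) := by
          rw [le_div_iff₀ (by positivity)]
          linarith only [h3]
        calc T * Mm ≤ 2 * (R + ρ₀) / (c * N₀) * Mm := by gcongr
          _ = κ * ρ₀ + κ * R := by rw [hκ]; ring
      rw [← hback]
      refine (norm_LE_nonneg hm hT z).trans ?_
      rw [hTn]
      calc Real.exp (T * Mm) * δ ≤ Real.exp (κ * ρ₀ + κ * R) * δ := by gcongr
        _ = C₁ * Real.exp (κ * R) := by rw [Real.exp_add, hC₁]; ring
  refine hfin.trans ?_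
  have h7 : κ * R ≤ (κ + C₁) * R := by nlinarith only [hC₁0, hR0]
  calc C₁ * Real.exp (κ * R) ≤ (κ + C₁) * Real.exp (κ * R) := by
        gcongr
        linarith only [hκ0]
    _ ≤ (κ + C₁) * Real.exp ((κ + C₁) * R) := by gcongr

end Vale.Agent.P253.CStar
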