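import Vale.Agent.P253.CStar.Local
import Vale.Agent.P253.CStar.Neg
import Vale.Agent.P253.CStar.Source
import Vale.Agent.P253.CStar.Upper
import Vale.Agent.P253.CStar.Defs

/-!
P253: uniformization of manifolds with a holomorphic action of `ℂ*` which has an attracting fixed
point.
-/

open scoped Manifold ContDiff Topology Bundle
open Set Metric Complex Filter Bundle IsManifold Manifold Vale.Agent.P253.Mfd

set_option maxSynthPendingDepth 3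
set_option linter.unusedSectionVars false

noncomputable section

namespace Vale.Agent.P253.CStar

variable {E : Type*} [NormedAddCommGroup E] [NormedSpace ℂ E] [FiniteDimensional ℂ E]
  {M : Type*} [MetricSpace M] [ChartedSpace E M] [IsManifold 𝓘(ℂ, E) 1 M]
  {ι : Type*} [Fintype ι] {ψ : ℂ → M → M} {p : M}

/-- the chart of the basin of attraction -/
theorem exists_basin_chart (h : HolC E ψ) (hp : ∀ ζ, ψ ζ p = p) (φ : E ≃L[ℂ] (ι → ℂ)) {m : ι → ℝ}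
    (hm : ∀ j, 0 < m j)
    (hw : ∀ (ζ : ℂ) (v : E), (mfderiv 𝓘(ℂ, E) 𝓘(ℂ, E) (ψ ζ) p : E → E) v = LE φ m ζ v) :
    ∃ e ∈ maximalAtlas 𝓘(ℂ, E) 1 M, e.target = univ ∧ p ∈ e.source ∧ e p = 0 ∧
      ∀ (θ : ℝ) (z : E), ψ (θ * I) (e.symm z) = e.symm (LE φ m (θ * I) z) := by
  obtain ⟨e₀, he₀, δ, hδ, hps, hep, htgt, hequiv⟩ := exists_linearizing_chart h hp φ m hw
  refine exists_global_chart hm he₀ hδ hps hep htgt (Φ := fun t : ℝ => ψ t)
    (ρ := fun θ : ℝ => ψ (θ * I)) (fun x => ?_) (fun s t x => ?_) (fun t => h.mdiff t)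
    (loc_neg h he₀ htgt hm hequiv) hequiv (fun θ t x => ?_)
  · simp only [ofReal_zero]
    exact h.zero x
  · simp only [ofReal_add]
    exact h.add _ _ x
  · rw [← h.add, ← h.add, add_comm]

variable [IsManifold 𝓘(ℝ, E) ∞ M]
  [RiemannianBundle (fun x : M => TangentSpace 𝓘(ℝ, E) x)]
  [IsContMDiffRiemannianBundle 𝓘(ℝ, E) ∞ E (fun x : M => TangentSpace 𝓘(ℝ, E) x)]
  [IsRiemannianManifold 𝓘(ℝ, E) M]

/-- the equivariant global chart -/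
theorem exists_chart (hK : IsKahler E M) [CompleteSpace M] [NoncompactSpace M] [ConnectedSpace M]
    (hnn : ∀ x : M, NonnegBisectionalAt E x) (hpos : PosBisectionalAt E p)
    (h : HolC E ψ) (hp : ∀ ζ, ψ ζ p = p) (φ : E ≃L[ℂ] (ι → ℂ)) {m : ι → ℝ}
    (hm : ∀ j, 0 < m j)
    (hw : ∀ (ζ : ℂ) (v : E), (mfderiv 𝓘(ℂ, E) 𝓘(ℂ, E) (ψ ζ) p : E → E) v = LE φ m ζ v) :
    ∃ e ∈ maximalAtlas 𝓘(ℂ, E) 1 M, e.target = univ ∧ e.source = univ ∧ e p = 0 ∧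
      (∀ (ζ : ℂ) (x : M), e (ψ ζ x) = LE φ m ζ (e x)) ∧
      ∃ C > 0, ∀ (x : M) (R : ℝ), (∀ θ : ℝ, dist p (ψ (θ * I) x) ≤ R) →
        ‖φ (e x)‖ ≤ C * Real.exp (C * R) := by
  have hCE : CompleteSpace E := FiniteDimensional.complete ℂ E
  obtain ⟨e, he, htgt, hps, hep, heq⟩ := exists_basin_chart h hp φ hm hw
  have hc : Continuous (fun q : ℝ × M => ψ (q.1 * I) q.2) := by
    have h2 : Continuous (fun q : ℝ × M => (((q.1 : ℝ) : ℂ) * I, q.2)) := by fun_prop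
    exact h.cont.comp h2
  have hsrc := source_eq_univ hK hnn hpos (ρ := fun θ : ℝ => ψ (θ * I)) hc
    (fun θ x => h.periodic x θ) he htgt hps hep hm heq
  obtain ⟨C, hC, hgr⟩ := upper_growth hK hnn hpos (ρ := fun θ : ℝ => ψ (θ * I)) hc
    (fun θ x => h.periodic x θ) he htgt hps hep hm heq
  refine ⟨e, he, htgt, hsrc, hep, fun ζ x => ?_, C, hC, fun x R hR => hgr x (hsrc ▸ mem_univ x) R hR⟩
  have hed : ∀ y : M, MDifferentiableAt 𝓘(ℂ, E) 𝓘(ℂ, E) e y := fun y =>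
    ((contMDiffOn_of_mem_maximalAtlas he).contMDiffAt
      (e.open_source.mem_nhds (hsrc ▸ mem_univ y))).mdifferentiableAt (by simp)
  refine equivariant_of_circle h (F := e) hed (fun θ x => ?_) ζ x
  have h1 := heq θ (e x)
  rw [e.left_inv (hsrc ▸ mem_univ x)] at h1
  rw [h1, e.right_inv (htgt ▸ mem_univ _)]

/-- the equivariant biholomorphism -/
theorem main_psi (hK : IsKahler E M) [CompleteSpace M] [NoncompactSpace M] [ConnectedSpace M]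
    (hnn : ∀ x : M, NonnegBisectionalAt E x) (hpos : PosBisectionalAt E p)
    (h : HolC E ψ) (hp : ∀ ζ, ψ ζ p = p) (φ : E ≃L[ℂ] (ι → ℂ)) {m : ι → ℝ}
    (hm : ∀ j, 0 < m j)
    (hw : ∀ (ζ : ℂ) (v : E), (mfderiv 𝓘(ℂ, E) 𝓘(ℂ, E) (ψ ζ) p : E → E) v = LE φ m ζ v) :
    ∃ F : M ≃ₘ^1⟮𝓘(ℂ, E), 𝓘(ℂ, E)⟯ E, F p = 0 ∧
      (∀ v : E, (mfderiv 𝓘(ℂ, E) 𝓘(ℂ, E) F p : E → E) v = v) ∧
      (∀ (ζ : ℂ) (x : M), F (ψ ζ x) = LE φ m ζ (F x)) ∧
      ∃ C > 0, ∀ (x : M) (R : ℝ), (∀ θ : ℝ, dist p (ψ (θ * I) x) ≤ R) →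
        ‖F x‖ ≤ C * Real.exp (C * R) := by
  obtain ⟨e, he, htgt, hsrc, hep, heq, C, hC, hgr⟩ := exists_chart hK hnn hpos h hp φ hm hw
  set G : M ≃ₘ^1⟮𝓘(ℂ, E), 𝓘(ℂ, E)⟯ E := chartDiffeo e he hsrc htgt with hG
  set D : E ≃L[ℂ] E := G.mfderivToContinuousLinearEquiv (by simp) p with hD
  have hder : ∀ v : E, (mfderiv 𝓘(ℂ, E) 𝓘(ℂ, E) e p : E → E) v = D v := fun v => rfl
  have hed : ∀ y : M, MDifferentiableAt 𝓘(ℂ, E) 𝓘(ℂ, E) e y := fun y =>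
    ((contMDiffOn_of_mem_maximalAtlas he).contMDiffAt
      (e.open_source.mem_nhds (hsrc ▸ mem_univ y))).mdifferentiableAt (by simp)
  -- `D` commutes with the linear action
  have hcomm : ∀ (ζ : ℂ) (u : E), D (LE φ m ζ u) = LE φ m ζ (D u) := by
    intro ζ u
    let De : E →L[ℂ] E := mfderiv 𝓘(ℂ, E) 𝓘(ℂ, E) e p
    let Dr : E →L[ℂ] E := mfderiv 𝓘(ℂ, E) 𝓘(ℂ, E) (ψ ζ) p
    have h1 : HasMFDerivAt 𝓘(ℂ, E) 𝓘(ℂ, E) e p De := (hed p).hasMFDerivAt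
    have h1' : HasMFDerivAt 𝓘(ℂ, E) 𝓘(ℂ, E) e (ψ ζ p) De := by
      rw [hp ζ]; exact h1
    have h2 : HasMFDerivAt 𝓘(ℂ, E) 𝓘(ℂ, E) (ψ ζ) p Dr := (h.mdiff ζ p).hasMFDerivAt
    have h3 : HasMFDerivAt 𝓘(ℂ, E) 𝓘(ℂ, E) (e ∘ ψ ζ) p (De.comp Dr) := h1'.comp p h2
    let L : E →L[ℂ] E := LEL φ m ζ
    have h4 : HasMFDerivAt 𝓘(ℂ, E) 𝓘(ℂ, E) (LE φ m ζ) (e p) L :=
      (LEL φ m ζ).hasFDerivAt.hasMFDerivAt
    have h5 : HasMFDerivAt 𝓘(ℂ, E) 𝓘(ℂ, E) (LE φ m ζ ∘ e) p (L.comp De) := h4.comp p h1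
    have h6 : (e ∘ ψ ζ) = (LE φ m ζ ∘ e) := funext fun x => heq ζ x
    rw [h6] at h3
    have h7 : De.comp Dr = L.comp De := hasMFDerivAt_unique h3 h5
    have h9 := congrArg (fun T : E →L[ℂ] E => T u) h7
    have e1 : De (Dr u) = D (LE φ m ζ u) := by
      have e2 : Dr u = LE φ m ζ u := hw ζ u
      rw [e2]
      exact hder _
    have e2 : L (De u) = LE φ m ζ (D u) := by
      have e3 : De u = D u := hder u
      rw [e3]
      rfl
    calc D (LE φ m ζ u) = De (Dr u) := e1.symm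
      _ = L (De u) := h9
      _ = _ := e2
  let F : M ≃ₘ^1⟮𝓘(ℂ, E), 𝓘(ℂ, E)⟯ E :=
    { toFun := fun x => D.symm (e x)
      invFun := fun z => e.symm (D z)
      left_inv := fun x => by
        change e.symm (D (D.symm (e x))) = x
        rw [ContinuousLinearEquiv.apply_symm_apply, e.left_inv (hsrc ▸ mem_univ x)]
      right_inv := fun z => by
        change D.symm (e (e.symm (D z))) = z
        rw [e.right_inv (htgt ▸ mem_univ _), ContinuousLinearEquiv.symm_apply_apply]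
      contMDiff_toFun := by
        have h1 := contMDiffOn_of_mem_maximalAtlas he
        rw [hsrc, contMDiffOn_univ] at h1
        exact (D.symm.contDiff.contMDiff).comp h1
      contMDiff_invFun := by
        have h1 := contMDiffOn_symm_of_mem_maximalAtlas he
        rw [htgt, contMDiffOn_univ] at h1
        exact h1.comp (D.contDiff.contMDiff) }
  have hFa : ∀ x, F x = D.symm (e x) := fun x => rfl
  refine ⟨F, ?_, fun v => ?_, fun ζ x => ?_, ?_⟩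
  · rw [hFa, hep, map_zero]
  · have h1 : HasMFDerivAt 𝓘(ℂ, E) 𝓘(ℂ, E) e p (mfderiv 𝓘(ℂ, E) 𝓘(ℂ, E) e p) := (hed p).hasMFDerivAt
    have h2 : HasMFDerivAt 𝓘(ℂ, E) 𝓘(ℂ, E) (D.symm : E → E) (e p) (D.symm : E →L[ℂ] E) :=
      (D.symm : E →L[ℂ] E).hasFDerivAt.hasMFDerivAt
    have h3 := h2.comp p h1
    have h4 : HasMFDerivAt 𝓘(ℂ, E) 𝓘(ℂ, E) F p
      ((D.symm : E →L[ℂ] E).comp (mfderiv 𝓘(ℂ, E) 𝓘(ℂ, E) e p)) := h3
    rw [h4.mfderiv]
    change D.symm ((mfderiv 𝓘(ℂ, E) 𝓘(ℂ, E) e p : E → E) v) = v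
    rw [hder, ContinuousLinearEquiv.symm_apply_apply]
  · rw [hFa, hFa, heq]
    apply D.injective
    rw [ContinuousLinearEquiv.apply_symm_apply, hcomm, ContinuousLinearEquiv.apply_symm_apply]
  · set A : ℝ := ‖(D.symm : E →L[ℂ] E)‖ * ‖(φ.symm : (ι → ℂ) →L[ℂ] E)‖ with hA
    have hA0 : 0 ≤ A := by positivity
    refine ⟨C * (A + 1), by positivity, fun x R hR => ?_⟩
    have h1 : ‖F x‖ ≤ A * ‖φ (e x)‖ := by
      have h2 : F x = D.symm (φ.symm (φ (e x))) := by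
        rw [ContinuousLinearEquiv.symm_apply_apply]; rfl
      rw [h2]
      calc ‖D.symm (φ.symm (φ (e x)))‖ ≤ ‖(D.symm : E →L[ℂ] E)‖ * ‖φ.symm (φ (e x))‖ :=
            (D.symm : E →L[ℂ] E).le_opNorm _
        _ ≤ ‖(D.symm : E →L[ℂ] E)‖ * (‖(φ.symm : (ι → ℂ) →L[ℂ] E)‖ * ‖φ (e x)‖) := by
            gcongr
            exact (φ.symm : (ι → ℂ) →L[ℂ] E).le_opNorm _
        _ = _ := by rw [hA]; ring
    have hR0 : 0 ≤ R := dist_nonneg.trans (hR 0)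
    calc ‖F x‖ ≤ A * ‖φ (e x)‖ := h1
      _ ≤ A * (C * Real.exp (C * R)) := by gcongr; exact hgr x R hR
      _ ≤ (A + 1) * (C * Real.exp (C * (A + 1) * R)) := by
          gcongr
          · linarith only []
          · nlinarith only [mul_nonneg hC.le hA0, hC]
      _ = _ := by ring

end Vale.Agent.P253.CStar
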