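import Vale.Agent.P253.Bdl.B2

/-! Growth along the orbits of a holomorphic `C^*`-action which need not preserve the metric. -/

open scoped Manifold ContDiff Topology Bundle
open Set Metric Complex Filter Bundle IsManifold

set_option maxSynthPendingDepth 3
set_option linter.unusedSectionVars false

noncomputable section

namespace Vale.Agent.P253.CStar

open Vale.Agent.P253.Mfd

section dist

variable {M : Type*} [MetricSpace M]

/-- minus the distance of `q` to the circle `u (t + i θ)` -/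
def cf (u : ℂ → M) (q : M) (t : ℝ) : ℝ :=
  -sInf ((fun θ : ℝ => dist (u (t + θ * I)) q) '' Icc 0 (2 * Real.pi))

theorem cf_attained {u : ℂ → M} (hu : Continuous u) (q : M) (t : ℝ) :
    ∃ θ₀ : ℝ, cf u q t = -dist (u (t + θ₀ * I)) q := by
  have hc : Continuous (fun θ : ℝ => dist (u (t + θ * I)) q) := by fun_prop
  obtain ⟨θ₀, h1, h2, -⟩ := (isCompact_Icc (a := (0:ℝ)) (b := 2 * Real.pi)).exists_sInf_image_eq_and_le
    (nonempty_Icc.2 (by positivity)) hc.continuousOn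
  exact ⟨θ₀, by rw [cf, h2]⟩

theorem le_cf {u : ℂ → M} (hper : ∀ ζ, u (ζ + 2 * Real.pi * I) = u ζ) (q : M) (t θ : ℝ) :
    -dist (u (t + θ * I)) q ≤ cf u q t := by
  have hp : Function.Periodic (fun θ : ℝ => u (t + θ * I)) (2 * Real.pi) := by
    intro θ
    simp only
    rw [← hper (t + θ * I)]
    congr 1
    push_cast
    ring
  obtain ⟨θ', h1, h2⟩ := hp.exists_mem_Ico₀ Real.two_pi_pos θ
  rw [h2, cf]
  apply neg_le_neg
  apply csInf_le
  · exact ⟨0, by rintro _ ⟨s, -, rfl⟩; exact dist_nonneg⟩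
  · exact ⟨θ', ⟨h1.1, h1.2.le⟩, rfl⟩

theorem continuous_cf {u : ℂ → M} (hu : Continuous u) (q : M) : Continuous (cf u q) := by
  have h1 : Continuous (Function.uncurry fun (t θ : ℝ) => dist (u (t + θ * I)) q) := by
    unfold Function.uncurry
    fun_prop
  exact ((isCompact_Icc (a := (0:ℝ)) (b := 2 * Real.pi)).continuous_sInf h1).neg

/-- a point of the line can be moved into the period strip -/
theorem exists_strip {X : Type*} {u : ℂ → X} (hper : ∀ ζ, u (ζ + 2 * Real.pi * I) = u ζ)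
    (t θ : ℝ) : ∃ θ' ∈ Icc (0:ℝ) (2 * Real.pi), u (t + θ * I) = u (t + θ' * I) := by
  have hp : Function.Periodic (fun θ : ℝ => u (t + θ * I)) (2 * Real.pi) := by
    intro θ
    simp only
    rw [← hper (t + θ * I)]
    congr 1
    push_cast
    ring
  obtain ⟨θ', h1, h2⟩ := hp.exists_mem_Ico₀ Real.two_pi_pos θ
  exact ⟨θ', ⟨h1.1, h1.2.le⟩, h2⟩

end dist

variable {E : Type*} [NormedAddCommGroup E] [NormedSpace ℂ E] [FiniteDimensional ℂ E]
  {M : Type*} [MetricSpace M] [ChartedSpace E M]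
  [IsManifold 𝓘(ℂ, E) 1 M] [IsManifold 𝓘(ℝ, E) ∞ M]
  [RiemannianBundle (fun x : M => TangentSpace 𝓘(ℝ, E) x)]
  [IsContMDiffRiemannianBundle 𝓘(ℝ, E) ∞ E (fun x : M => TangentSpace 𝓘(ℝ, E) x)]
  [IsRiemannianManifold 𝓘(ℝ, E) M]

/-- second difference bound for the distance to a circle -/
theorem second_diff {e : OpenPartialHomeomorph M E} (he : e ∈ maximalAtlas 𝓘(ℂ, E) 1 M) {w : ℂ → E}
    (hw : Differentiable ℂ w) (hwt : ∀ ζ, w ζ ∈ e.target)
    (huc : Continuous fun ζ => e.symm (w ζ))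
    (hper : ∀ ζ, w (ζ + 2 * Real.pi * I) = w ζ) (q : M) (t : ℝ) :
    ∃ θ₀ : ℝ, ∀ A : ℝ, LeviBound (E := E) q (e.symm (w (t + θ₀ * I))) A → ∀ η > 0,
    ∀ᶠ r in 𝓝[>] (0:ℝ), (-A * chartG e (w (t + θ₀ * I)) (deriv w (t + θ₀ * I))
        (deriv w (t + θ₀ * I)) - η) * r ^ 2 ≤
      cf (fun ζ => e.symm (w ζ)) q (t + r) + cf (fun ζ => e.symm (w ζ)) q (t - r)
        - 2 * cf (fun ζ => e.symm (w ζ)) q t := by
  obtain ⟨θ₀, hθ₀⟩ := cf_attained huc q t
  refine ⟨θ₀, fun A hA η hη => ?_⟩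
  have hper' : ∀ ζ, e.symm (w (ζ + 2 * Real.pi * I)) = e.symm (w ζ) := fun ζ => by rw [hper]
  have hle := fun t θ : ℝ => le_cf (u := fun ζ => e.symm (w ζ)) hper' q t θ
  have h1 := hA e he (e.map_target (hwt _)) (deriv w (t + θ₀ * I)) _
    (harm_of_holo hw hwt (t + θ₀ * I)) η hη
  filter_upwards [h1] with r hr
  rw [e.right_inv (hwt _)] at hr
  rw [Fin.sum_univ_four] at hr
  have h3 : (I : ℂ) ^ 3 = -I := by rw [pow_succ, I_sq]; ring
  simp only [Fin.val_zero, Fin.val_one, Fin.val_two, pow_zero, pow_one, I_sq,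
    show ((3 : Fin 4) : ℕ) = 3 from rfl, h3, mul_one, mul_neg] at hr
  have e1 := hle (t + r) θ₀
  have e2 := hle (t - r) θ₀
  have e3 := hle t (θ₀ + r)
  have e4 := hle t (θ₀ - r)
  have a1 : ((t + r : ℝ) : ℂ) + θ₀ * I = t + θ₀ * I + r := by push_cast; ring
  have a2 : ((t - r : ℝ) : ℂ) + θ₀ * I = t + θ₀ * I + -r := by push_cast; ring
  have a3 : (t : ℂ) + ((θ₀ + r : ℝ) : ℂ) * I = t + θ₀ * I + r * I := by push_cast; ring
  have a4 : (t : ℂ) + ((θ₀ - r : ℝ) : ℂ) * I = t + θ₀ * I + -(r * I) := by push_cast; ring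
  rw [a1] at e1
  rw [a2] at e2
  rw [a3] at e3
  rw [a4] at e4
  linarith only [hr, e1, e2, e3, e4, hθ₀]

theorem growth (hK : IsKahler E M) [ProperSpace M] (hnn : ∀ x : M, NonnegBisectionalAt E x)
    {p : M} (hunb : ∀ R : ℝ, ∃ q : M, R < dist p q) {ρ₀ c L₀ : ℝ} (hρ₀ : 0 < ρ₀) (hc : 0 < c)
    (hstr : ∀ x ∈ ball p ρ₀, ∀ q : M, L₀ ≤ dist x q → LeviBound (E := E) q x (-c))
    {e : OpenPartialHomeomorph M E} (he : e ∈ maximalAtlas 𝓘(ℂ, E) 1 M) {w : ℂ → E}
    (hw : Differentiable ℂ w) (hwt : ∀ ζ, w ζ ∈ e.target)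
    (hper : ∀ ζ, w (ζ + 2 * Real.pi * I) = w ζ)
    (hneg : ∀ t : ℝ, t ≤ 0 → ∀ θ : ℝ, e.symm (w (t + θ * I)) ∈ ball p ρ₀) {N₀ : ℝ}
    (hNlow : ∀ t : ℝ, t ∈ Icc (-1:ℝ) 0 → ∀ θ : ℝ,
      N₀ ≤ chartG e (w (t + θ * I)) (deriv w (t + θ * I)) (deriv w (t + θ * I)))
    {T : ℝ} (hT : 0 ≤ T) {R : ℝ} (hR : ∀ θ : ℝ, dist p (e.symm (w (T + θ * I))) ≤ R) :
    c * N₀ * T / 2 ≤ R + ρ₀ := by
  have hR0 : 0 ≤ R := dist_nonneg.trans (hR 0)
  rcases hT.eq_or_lt with rfl | hT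
  · simp only [mul_zero, zero_div]
    positivity
  have her := mem_maximalAtlas_real he
  set u : ℂ → M := fun ζ => e.symm (w ζ) with hu
  have huc : Continuous u := e.continuousOn_symm.comp_continuous hw.continuous (fun t => hwt _)
  have huper : ∀ ζ, u (ζ + 2 * Real.pi * I) = u ζ := fun ζ => by simp only [hu, hper]
  set N : ℂ → ℝ := fun ζ => chartG e (w ζ) (deriv w ζ) (deriv w ζ) with hN
  have hdw : Continuous (deriv w) := by
    have : ContDiff ℂ 1 w := by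
      have := contDiffOn_of_differentiableOn_complex isOpen_univ (hw.differentiableOn (s := univ))
      exact (contDiffOn_univ.1 this).of_le (by simp)
    exact this.continuous_deriv le_rfl
  have hNc : Continuous N := by
    have h2 : Continuous (fun ζ : ℂ => chartG e (w ζ)) :=
      (contDiffOn_chartG her).continuousOn.comp_continuous hw.continuous (fun t => hwt _)
    exact (h2.clm_apply hdw).clm_apply hdw
  have hdper : ∀ ζ, deriv w (ζ + 2 * Real.pi * I) = deriv w ζ := by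
    intro ζ
    have h1 : (fun ζ => w (ζ + 2 * Real.pi * I)) = w := funext hper
    have h2 := deriv_comp_add_const w (2 * Real.pi * I) ζ
    rw [h1] at h2
    exact h2.symm
  have hNper : ∀ ζ, N (ζ + 2 * Real.pi * I) = N ζ := fun ζ => by
    simp only [hN, hper, hdper]
  have hN0 : ∀ t, 0 ≤ N t := by
    intro t
    by_cases h0 : deriv w t = 0
    · simp [hN, h0]
    · exact (chartG_pos her (hwt _) _ h0).le
  -- bounds on the strip
  have hcpt : IsCompact (Icc (-1:ℝ) T ×ˢ Icc (0:ℝ) (2 * Real.pi)) := isCompact_Icc.prod isCompact_Icc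
  have hζc : Continuous (fun s : ℝ × ℝ => (s.1 : ℂ) + s.2 * I) := by fun_prop
  obtain ⟨B, hB⟩ := hcpt.exists_bound_of_continuousOn (f := fun s : ℝ × ℝ => N (s.1 + s.2 * I))
    (hNc.comp hζc).continuousOn
  have hNB : ∀ t ∈ Icc (-1:ℝ) T, ∀ θ : ℝ, N (t + θ * I) ≤ B := by
    intro t ht θ
    obtain ⟨θ', hθ', h1⟩ := exists_strip hNper t θ
    rw [h1]
    exact (le_abs_self _).trans (hB (t, θ') ⟨ht, hθ'⟩)
  have hB0 : 0 ≤ B := (hN0 _).trans (hNB 0 ⟨by norm_num, hT.le⟩ 0)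
  obtain ⟨CT, hCT⟩ := hcpt.exists_bound_of_continuousOn
    (f := fun s : ℝ × ℝ => dist p (u (s.1 + s.2 * I)))
    (continuous_const.dist (huc.comp hζc)).continuousOn
  have hCT' : ∀ t ∈ Icc (-1:ℝ) T, ∀ θ : ℝ, dist p (u (t + θ * I)) ≤ CT := by
    intro t ht θ
    obtain ⟨θ', hθ', h1⟩ := exists_strip huper t θ
    rw [h1]
    exact (le_abs_self _).trans (hCT (t, θ') ⟨ht, hθ'⟩)
  have hCT0 : 0 ≤ CT := dist_nonneg.trans (hCT' 0 ⟨by norm_num, hT.le⟩ 0)
  by_contra hcon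
  push Not at hcon
  set μ := (c * N₀ * T / 2 - (R + ρ₀)) / (T / 4 + T ^ 2 / 2) / 2 with hμ
  have hμ0 : 0 < μ := by
    have : 0 < c * N₀ * T / 2 - (R + ρ₀) := by linarith only [hcon]
    positivity
  obtain ⟨q, hq⟩ := hunb (max (|L₀| + ρ₀) (CT + 2 * (B + 1) / μ))
  have hq1 : |L₀| + ρ₀ < dist p q := (le_max_left _ _).trans_lt hq
  have hq2 : CT + 2 * (B + 1) / μ < dist p q := (le_max_right _ _).trans_lt hq
  set f : ℝ → ℝ := cf u q with hf
  have hfc : Continuous f := continuous_cf huc q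
  have hflip : ∀ a b : ℝ, ∃ θ : ℝ, f a - f b ≤ dist (u (b + (0:ℝ) * I)) (u (a + θ * I)) := by
    intro a b
    obtain ⟨θ, hθ⟩ := cf_attained huc q a
    refine ⟨θ, ?_⟩
    have h1 := le_cf huper q b 0
    have h2 := dist_triangle (u (b + (0:ℝ) * I)) (u (a + θ * I)) q
    simp only [hf]
    linarith only [hθ, h1, h2]
  -- second differences
  have hsd_neg : ∀ t : ℝ, t ≤ 0 → ∀ η : ℝ, η > 0 → ∃ θ : ℝ, ∀ᶠ r in 𝓝[>] (0:ℝ),
      (c * N (t + θ * I) - η) * r ^ 2 ≤ f (t + r) + f (t - r) - 2 * f t := by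
    intro t ht η hη
    obtain ⟨θ₀, hθ₀⟩ := second_diff he hw hwt huc hper q t
    refine ⟨θ₀, ?_⟩
    have hA : LeviBound (E := E) q (e.symm (w (t + θ₀ * I))) (-c) := by
      apply hstr _ (hneg t ht θ₀)
      have h2 : dist (e.symm (w (t + θ₀ * I))) p < ρ₀ := hneg t ht θ₀
      have h3 := dist_triangle_left p q (e.symm (w (t + θ₀ * I)))
      have h4 := le_abs_self L₀
      linarith only [hq1, h2, h3, h4]
    filter_upwards [hθ₀ (-c) hA η hη] with r hr
    have e1 : -(-c) * chartG e (w (t + θ₀ * I)) (deriv w (t + θ₀ * I)) (deriv w (t + θ₀ * I))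
        = c * N (t + θ₀ * I) := by
      simp only [hN]; ring
    rw [e1] at hr
    exact hr
  have hsd_all : ∀ t ∈ Icc (-1:ℝ) T, ∀ η : ℝ, η > 0 → ∀ᶠ r in 𝓝[>] (0:ℝ),
      (-μ - η) * r ^ 2 ≤ f (t + r) + f (t - r) - 2 * f t := by
    intro t ht η hη
    obtain ⟨θ₀, hθ₀⟩ := second_diff he hw hwt huc hper q t
    have hA : LeviBound (E := E) q (e.symm (w (t + θ₀ * I))) (μ / (B + 1)) := by
      have h2 := hCT' t ht θ₀
      have h3 := dist_triangle p (u (t + θ₀ * I)) q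
      have h4 : 2 * (B + 1) / μ ≤ dist (u (t + θ₀ * I)) q := by linarith only [hq2, h2, h3]
      have h5 : 0 < 2 * (B + 1) / μ := by positivity
      have h6 : 0 < dist (u (t + θ₀ * I)) q := h5.trans_le h4
      refine (levi_bound hK hnn (dist_pos.1 h6)).mono ?_
      rw [div_le_div_iff₀ h6 (by positivity)]
      rw [div_le_iff₀ hμ0] at h4
      linarith only [h4]
    filter_upwards [hθ₀ _ hA η hη] with r hr
    refine le_trans ?_ hr
    have h1 : N (t + θ₀ * I) ≤ B := hNB t ht θ₀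
    have h2 : μ / (B + 1) * N (t + θ₀ * I) ≤ μ := by
      calc _ ≤ μ / (B + 1) * (B + 1) := by
            gcongr
            linarith only [h1]
        _ = μ := by field_simp
    have h3 : -(μ / (B + 1)) * chartG e (w (t + θ₀ * I)) (deriv w (t + θ₀ * I))
        (deriv w (t + θ₀ * I)) = -(μ / (B + 1) * N (t + θ₀ * I)) := by
      simp only [hN]; ring
    rw [h3]
    gcongr
  have hc1 : ∀ a < 0, ConvexOn ℝ (Icc a 0) f := by
    intro a ha
    have := convexOn_of_second_diff (f := f) (a := a) (b := 0) (m := 0) hfc.continuousOn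
      (fun t ht η hη => by
        obtain ⟨θ, hθ⟩ := hsd_neg t ht.2.le η hη
        filter_upwards [hθ] with r hr
        refine le_trans ?_ hr
        have := mul_nonneg hc.le (hN0 (t + θ * I))
        gcongr)
    simpa using this
  have hc2 : ConvexOn ℝ (Icc (-1) 0) (fun t => f t - c * N₀ * t ^ 2 / 2) := by
    refine convexOn_of_second_diff (f := f) (a := -1) (b := 0) (m := c * N₀) hfc.continuousOn
      (fun t ht η hη => ?_)
    obtain ⟨θ, hθ⟩ := hsd_neg t ht.2.le η hη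
    filter_upwards [hθ] with r hr
    refine le_trans ?_ hr
    have := hNlow t ⟨ht.1.le, ht.2.le⟩ θ
    gcongr
  have hc3 : ConvexOn ℝ (Icc (-1) T) (fun t => f t + μ * t ^ 2 / 2) := by
    have := convexOn_of_second_diff (f := f) (a := -1) (b := T) (m := -μ) hfc.continuousOn
      (fun t ht η hη => hsd_all t ⟨ht.1.le, ht.2.le⟩ η hη)
    refine this.congr (fun t _ => ?_)
    simp only
    ring
  have hfin := slope_lemma (f := f) (c₁ := c * N₀) (D := 2 * ρ₀) (by positivity) hc1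
    (fun a ha b hb => by
      obtain ⟨θ, hθ⟩ := hflip a b
      refine hθ.trans ?_
      have h1 : dist (u (a + θ * I)) p < ρ₀ := hneg a ha θ
      have h2 : dist (u (b + (0:ℝ) * I)) p < ρ₀ := hneg b hb 0
      have h3 := dist_triangle_right (u (b + (0:ℝ) * I)) (u (a + θ * I)) p
      linarith only [h1, h2, h3]) hc2 hT hc3
  obtain ⟨θ, h7⟩ := hflip T 0
  have h8 : dist (u ((0:ℝ) + (0:ℝ) * I)) (u (T + θ * I)) ≤ R + ρ₀ := by
    have h1 : dist (u ((0:ℝ) + (0:ℝ) * I)) p < ρ₀ := hneg 0 le_rfl 0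
    have h2 := hR θ
    have h3 := dist_triangle (u ((0:ℝ) + (0:ℝ) * I)) p (u (T + θ * I))
    linarith only [h1, h2, h3]
  have h9 : μ * (T / 4 + T ^ 2 / 2) = (c * N₀ * T / 2 - (R + ρ₀)) / 2 := by
    rw [hμ]; field_simp
  nlinarith only [hcon, hfin, h7, h8, h9]

end Vale.Agent.P253.CStar
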