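import Vale.Agent.P253.Bdl.B2

/-!
P253: linearization of a holomorphic action of `ℂ*` (written as a `2πi`-periodic action of `ℂ`) near
an attracting fixed point.
-/

open scoped Manifold ContDiff Topology Bundle
open Set Metric Complex Filter Bundle IsManifold Manifold Vale.Agent.P253.Mfd

set_option maxSynthPendingDepth 3
set_option linter.unusedSectionVars false

noncomputable section

namespace Vale.Agent.P253.CStar

variable {E : Type*} [NormedAddCommGroup E] [NormedSpace ℂ E] [FiniteDimensional ℂ E]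
  {M : Type*} [MetricSpace M] [ChartedSpace E M] [IsManifold 𝓘(ℂ, E) 1 M]
  {ι : Type*} [Fintype ι]

variable (E) in
/-- a holomorphic action of `ℂ` with period `2πi` -/
structure HolC (ψ : ℂ → M → M) : Prop where
  zero : ∀ x, ψ 0 x = x
  add : ∀ s t x, ψ (s + t) x = ψ s (ψ t x)
  period : ∀ x, ψ (2 * Real.pi * I) x = x
  holo : ContMDiff (𝓘(ℂ, ℂ).prod 𝓘(ℂ, E)) 𝓘(ℂ, E) 1 (fun q : ℂ × M => ψ q.1 q.2)

variable {ψ : ℂ → M → M}

theorem HolC.cont (h : HolC E ψ) : Continuous (fun q : ℂ × M => ψ q.1 q.2) := h.holo.continuous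

theorem HolC.contMDiff (h : HolC E ψ) (ζ : ℂ) : ContMDiff 𝓘(ℂ, E) 𝓘(ℂ, E) 1 (ψ ζ) :=
  h.holo.comp (contMDiff_const.prodMk contMDiff_id)

theorem HolC.mdiff (h : HolC E ψ) (ζ : ℂ) : MDifferentiable 𝓘(ℂ, E) 𝓘(ℂ, E) (ψ ζ) :=
  (h.contMDiff ζ).mdifferentiable (by simp)

theorem HolC.periodic (h : HolC E ψ) (x : M) :
    Function.Periodic (fun θ : ℝ => ψ (θ * I) x) (2 * Real.pi) := by
  intro θ
  have e1 : ((θ + 2 * Real.pi : ℝ) : ℂ) * I = θ * I + 2 * Real.pi * I := by push_cast; ring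
  simp only [e1]
  rw [h.add, h.period]

/-- invariant neighbourhoods -/
theorem HolC.exists_invariant (h : HolC E ψ) {p : M} (hp : ∀ ζ, ψ ζ p = p) {W : Set M}
    (hW : W ∈ 𝓝 p) :
    ∃ V, IsOpen V ∧ p ∈ V ∧ V ⊆ W ∧ ∀ (θ : ℝ), ∀ x ∈ V, ψ (θ * I) x ∈ V := by
  obtain ⟨W', hW'W, hW'o, hpW'⟩ := _root_.mem_nhds_iff.1 hW
  refine ⟨{x | ∀ θ : ℝ, ψ (θ * I) x ∈ W'}, ?_, ?_, ?_, ?_⟩
  · rw [isOpen_iff_mem_nhds]
    intro x hx
    have h1 : ∀ᶠ y in 𝓝 x, ∀ θ ∈ Icc (0:ℝ) (2 * Real.pi), ψ (θ * I) y ∈ W' := by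
      apply isCompact_Icc.eventually_forall_of_forall_eventually
      intro θ _
      have hc : Continuous (fun q : M × ℝ => ψ (q.2 * I) q.1) := by
        have h2 : Continuous (fun q : M × ℝ => (((q.2 : ℝ) : ℂ) * I, q.1)) := by fun_prop
        exact h.cont.comp h2
      exact hc.continuousAt.eventually (hW'o.mem_nhds (hx θ))
    filter_upwards [h1] with y hy θ
    obtain ⟨θ', hθ', he⟩ := (h.periodic y).exists_mem_Ico₀ (by positivity) θ
    change ψ (θ * I) y = ψ (θ' * I) y at he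
    rw [he]
    exact hy θ' ⟨hθ'.1, hθ'.2.le⟩
  · intro θ
    rw [hp]
    exact hpW'
  · intro x hx
    have := hx 0
    rw [ofReal_zero, zero_mul, h.zero] at this
    exact hW'W this
  · intro θ x hx θ'
    rw [← h.add]
    have e1 : (θ' : ℂ) * I + θ * I = ((θ' + θ : ℝ) : ℂ) * I := by push_cast; ring
    rw [e1]
    exact hx _

/-- the action in a chart -/
def HC (ψ : ℂ → M → M) (e e' : OpenPartialHomeomorph M E) (q : ℂ × E) : E :=
  e' (ψ q.1 (e.symm q.2))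

/-- domain of the action in a chart -/
def HCΩ (ψ : ℂ → M → M) (e e' : OpenPartialHomeomorph M E) : Set (ℂ × E) :=
  {q | q.2 ∈ e.target ∧ ψ q.1 (e.symm q.2) ∈ e'.source}

variable {e e' : OpenPartialHomeomorph M E}

theorem isOpen_HCΩ (h : HolC E ψ) : IsOpen (HCΩ ψ e e') := by
  have hc : ContinuousOn (fun q : ℂ × E => ψ q.1 (e.symm q.2)) {q | q.2 ∈ e.target} := by
    have h1 : ContinuousOn (fun q : ℂ × E => (q.1, e.symm q.2)) {q | q.2 ∈ e.target} :=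
      continuousOn_fst.prodMk (e.continuousOn_symm.comp continuousOn_snd (fun q hq => hq))
    exact h.cont.comp_continuousOn h1
  have ho : IsOpen {q : ℂ × E | q.2 ∈ e.target} := e.open_target.preimage continuous_snd
  exact hc.isOpen_inter_preimage ho e'.open_source

theorem contDiffOn_HC (h : HolC E ψ) (he : e ∈ maximalAtlas 𝓘(ℂ, E) 1 M)
    (he' : e' ∈ maximalAtlas 𝓘(ℂ, E) 1 M) : ContDiffOn ℂ 1 (HC ψ e e') (HCΩ ψ e e') := by
  have h1 : ContMDiffOn (𝓘(ℂ, ℂ).prod 𝓘(ℂ, E)) (𝓘(ℂ, ℂ).prod 𝓘(ℂ, E)) 1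
      (fun q : ℂ × E => (q.1, e.symm q.2)) (HCΩ ψ e e') := by
    refine ContMDiffOn.prodMk contMDiffOn_fst ?_
    exact (contMDiffOn_symm_of_mem_maximalAtlas he).comp contMDiffOn_snd (fun q hq => hq.1)
  have h2 := h.holo.comp_contMDiffOn h1
  have h3 := (contMDiffOn_of_mem_maximalAtlas he').comp h2 (fun q hq => hq.2)
  have h4 : ContMDiffOn 𝓘(ℂ, ℂ × E) 𝓘(ℂ, E) 1 (HC ψ e e') (HCΩ ψ e e') := by
    rw [← modelWithCornersSelf_prod, chartedSpaceSelf_prod] at h3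
    exact h3
  exact contMDiffOn_iff_contDiffOn.1 h4

theorem differentiableAt_HC (h : HolC E ψ)
    (he : e ∈ maximalAtlas 𝓘(ℂ, E) 1 M) (he' : e' ∈ maximalAtlas 𝓘(ℂ, E) 1 M) {q : ℂ × E}
    (hq : q ∈ HCΩ ψ e e') : DifferentiableAt ℂ (HC ψ e e') q :=
  ((contDiffOn_HC h he he').contDiffAt ((isOpen_HCΩ h).mem_nhds hq)).differentiableAt (by simp)

theorem hasFDerivAt_HC_right (h : HolC E ψ)
    (he : e ∈ maximalAtlas 𝓘(ℂ, E) 1 M) (he' : e' ∈ maximalAtlas 𝓘(ℂ, E) 1 M) {t : ℂ} {z : E}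
    (hq : (t, z) ∈ HCΩ ψ e e') :
    HasFDerivAt (fun w => HC ψ e e' (t, w))
      ((fderiv ℂ (HC ψ e e') (t, z)).comp (ContinuousLinearMap.inr ℂ ℂ E)) z := by
  have h1 := (differentiableAt_HC h he he' hq).hasFDerivAt
  have h2 : HasFDerivAt (fun w : E => (t, w)) (ContinuousLinearMap.inr ℂ ℂ E) z :=
    hasFDerivAt_prodMk_right t z
  exact h1.comp z h2

/-- Linearization of the circle action near a fixed point. -/
theorem exists_linearizing_chart (h : HolC E ψ) {p : M}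
    (hp : ∀ ζ, ψ ζ p = p) (φ : E ≃L[ℂ] (ι → ℂ)) (m : ι → ℝ)
    (hw : ∀ (ζ : ℂ) (v : E), (mfderiv 𝓘(ℂ, E) 𝓘(ℂ, E) (ψ ζ) p : E → E) v = LE φ m ζ v) :
    ∃ e₀ ∈ maximalAtlas 𝓘(ℂ, E) 1 M, ∃ δ > 0, p ∈ e₀.source ∧ e₀ p = 0 ∧
      e₀.target = {z | ‖φ z‖ < δ} ∧
      ∀ θ : ℝ, ∀ x ∈ e₀.source, ψ (θ * I) x ∈ e₀.source ∧
        e₀ (ψ (θ * I) x) = LE φ m (θ * I) (e₀ x) := by
  have hCE : CompleteSpace E := FiniteDimensional.complete ℂ E
  have hPE : ProperSpace E := FiniteDimensional.proper ℂ E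
  have hPEE : ProperSpace (E →L[ℂ] E) := FiniteDimensional.proper ℂ _
  have hc : chartAt E p ∈ maximalAtlas 𝓘(ℂ, E) 1 M := chart_mem_maximalAtlas p
  have hpc : p ∈ (chartAt E p).source := mem_chart_source E p
  -- the derivative at the fixed point in the chart
  have hwc : ∀ (ζ : ℂ) (v : E),
      fderiv ℂ (fun z => chartAt E p (ψ ζ ((chartAt E p).symm z))) (chartAt E p p) v
        = LE φ m ζ v := by
    intro ζ v
    have hmd : MDifferentiableAt 𝓘(ℂ, E) 𝓘(ℂ, E) (ψ ζ) p := h.mdiff ζ p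
    have h0 : (mfderiv 𝓘(ℂ, E) 𝓘(ℂ, E) (ψ ζ) p : E →L[ℂ] E) =
        fderivWithin ℂ (writtenInExtChartAt 𝓘(ℂ, E) 𝓘(ℂ, E) p (ψ ζ)) (range 𝓘(ℂ, E))
          (extChartAt 𝓘(ℂ, E) p p) := hmd.mfderiv
    have h1 : (mfderiv 𝓘(ℂ, E) 𝓘(ℂ, E) (ψ ζ) p : E →L[ℂ] E) v = LE φ m ζ v := hw ζ v
    rw [h0] at h1
    simp only [writtenInExtChartAt, hp ζ, extChartAt, mfld_simps, fderivWithin_univ] at h1
    exact h1
  set c := chartAt E p with hcdef
  set z₀ := c p with hz₀def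
  -- a small invariant neighbourhood
  obtain ⟨B, hBo, hpB, hball, hinv⟩ : ∃ B, IsOpen B ∧ p ∈ B ∧
      (∀ x ∈ B, x ∈ c.source ∧ ‖c x - z₀‖ < 1) ∧
      ∀ (θ : ℝ), ∀ x ∈ B, ψ (θ * I) x ∈ B := by
    have h1 : ∀ᶠ x in 𝓝 p, x ∈ c.source := c.open_source.mem_nhds hpc
    have h2 : ∀ᶠ x in 𝓝 p, ‖c x - z₀‖ < 1 := by
      have := (c.continuousAt hpc).eventually (ball_mem_nhds z₀ one_pos)
      filter_upwards [this] with x hx
      rwa [dist_eq_norm] at hx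
    obtain ⟨B, h3, h4, h5, h6⟩ := h.exists_invariant hp (h1.and h2)
    exact ⟨B, h3, h4, h5, h6⟩
  have hUo : IsOpen (c.target ∩ c.symm ⁻¹' B) :=
    c.continuousOn_symm.isOpen_inter_preimage c.open_target hBo
  set U := c.target ∩ c.symm ⁻¹' B with hUdef
  have hz₀U : z₀ ∈ U := ⟨c.map_source hpc, by
    simp only [mem_preimage, hz₀def, c.left_inv hpc]; exact hpB⟩
  set f : ℝ → E → E := fun θ z => HC ψ c c (θ * I, z) with hf
  have hΩ : ∀ (θ : ℝ), ∀ z ∈ U, ((θ : ℂ) * I, z) ∈ HCΩ ψ c c := fun θ z hz =>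
    ⟨hz.1, (hball _ (hinv θ _ hz.2)).1⟩
  have hfU : ∀ (θ : ℝ), ∀ z ∈ U, f θ z ∈ U ∧ c.symm (f θ z) = ψ (θ * I) (c.symm z) := by
    intro θ z hz
    have h1 : ψ (θ * I) (c.symm z) ∈ B := hinv θ _ hz.2
    have h2 : c.symm (f θ z) = ψ (θ * I) (c.symm z) := c.left_inv (hball _ h1).1
    refine ⟨⟨c.map_source (hball _ h1).1, ?_⟩, h2⟩
    simp only [mem_preimage, h2]
    exact h1
  have hfn : ∀ (θ : ℝ), ∀ z ∈ U, ‖f θ z - z₀‖ ≤ 1 := fun θ z hz =>
    (hball _ (hinv θ _ hz.2)).2.le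
  have hfz₀ : ∀ θ, f θ z₀ = z₀ := by
    intro θ
    simp only [hf, HC, hz₀def]
    rw [c.left_inv hpc, hp]
  have hfadd : ∀ (θ s : ℝ), ∀ z ∈ U, f θ (f s z) = f (θ + s) z := by
    intro θ s z hz
    change c (ψ (θ * I) (c.symm (f s z))) = c (ψ (((θ + s : ℝ) : ℂ) * I) (c.symm z))
    rw [(hfU s z hz).2, ← h.add]
    congr 2
    push_cast; ring
  have hθc : ∀ z : E, Continuous fun θ : ℝ => ((θ : ℂ) * I, z) := fun z => by fun_prop
  have hfc : ∀ z ∈ U, Continuous fun θ => f θ z := by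
    intro z hz
    exact (contDiffOn_HC h hc hc).continuousOn.comp_continuous (hθc z) (fun θ => hΩ θ z hz)
  have hfdc : ∀ z ∈ U, ∀ v : E, Continuous fun θ => fderiv ℂ (f θ) z v := by
    intro z hz v
    have h2 := ((contDiffOn_HC h hc hc).continuousOn_fderiv_of_isOpen (isOpen_HCΩ h)
      le_rfl).comp_continuous (hθc z) (fun θ => hΩ θ z hz)
    have h3 : Continuous fun θ : ℝ => fderiv ℂ (HC ψ c c) ((θ : ℂ) * I, z) (0, v) :=
      h2.clm_apply continuous_const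
    refine h3.congr (fun θ => ?_)
    have h4 := (hasFDerivAt_HC_right h hc hc (hΩ θ z hz)).fderiv
    have h5 : fderiv ℂ (f θ) z = (fderiv ℂ (HC ψ c c) ((θ : ℂ) * I, z)).comp
      (ContinuousLinearMap.inr ℂ ℂ E) := h4
    rw [h5]
    simp
  have hfd : ∀ θ, DifferentiableOn ℂ (f θ) U := fun θ z hz =>
    (hasFDerivAt_HC_right h hc hc (hΩ θ z hz)).differentiableAt.differentiableWithinAt
  obtain ⟨ψ₁, hψdiff, hψ0, hψ', hψeq⟩ := exists_linearization hUo hz₀U hfn hfz₀ hfadd hfc hfdc hfd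
    φ m (fun t v => hwc (t * I) v)
  obtain ⟨Ψ, hΨ1, hΨ2, hΨ3, hΨ4⟩ := exists_inverse_chart hUo hψdiff hz₀U hψ'
  -- a smaller invariant neighbourhood
  obtain ⟨B₂, hB₂o, hpB₂, hball₂, hinv₂⟩ : ∃ B₂, IsOpen B₂ ∧ p ∈ B₂ ∧
      (∀ x ∈ B₂, x ∈ B ∧ c x ∈ Ψ.source) ∧
      ∀ (θ : ℝ), ∀ x ∈ B₂, ψ (θ * I) x ∈ B₂ := by
    have h1 : ∀ᶠ x in 𝓝 p, x ∈ B := hBo.mem_nhds hpB
    have h2 : ∀ᶠ x in 𝓝 p, c x ∈ Ψ.source :=
      (c.continuousAt hpc).eventually (Ψ.open_source.mem_nhds hΨ1)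
    obtain ⟨B, h3, h4, h5, h6⟩ := h.exists_invariant hp (h1.and h2)
    exact ⟨B, h3, h4, h5, h6⟩
  have hsrcc : ∀ x ∈ B₂, x ∈ c.source := fun x hx => (hball _ (hball₂ x hx).1).1
  have hcU : ∀ x ∈ B₂, c x ∈ U := fun x hx => hΨ2 (hball₂ x hx).2
  set e₁ : OpenPartialHomeomorph M E := (c.restrOpen B₂ hB₂o).trans Ψ with he₁
  have he₁a : ∀ x, e₁ x = ψ₁ (c x) := fun x => hΨ3 (c x)
  have he₁s : e₁.source = B₂ := by
    ext x
    simp only [he₁, OpenPartialHomeomorph.trans_source, OpenPartialHomeomorph.restrOpen_source,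
      OpenPartialHomeomorph.coe_restrOpen, mem_inter_iff, mem_preimage]
    constructor
    · rintro ⟨⟨-, h⟩, -⟩
      exact h
    · intro h
      exact ⟨⟨hsrcc x h, h⟩, (hball₂ x h).2⟩
  have hp₁ : p ∈ e₁.source := he₁s ▸ hpB₂
  have he₁p : e₁ p = 0 := (he₁a p).trans hψ0
  have h0t : (0:E) ∈ e₁.target := he₁p ▸ e₁.map_source hp₁
  obtain ⟨δ, hδ, hδt⟩ : ∃ δ > 0, ∀ z : E, ‖φ z‖ < δ → z ∈ e₁.target := by
    have h1 : φ.symm ⁻¹' e₁.target ∈ 𝓝 (0 : ι → ℂ) := by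
      apply φ.symm.continuous.continuousAt.preimage_mem_nhds
      rw [map_zero]
      exact e₁.open_target.mem_nhds h0t
    obtain ⟨δ, hδ, h2⟩ := Metric.nhds_basis_ball.mem_iff.1 h1
    refine ⟨δ, hδ, fun z hz => ?_⟩
    have h3 := h2 (show φ z ∈ ball 0 δ by simpa using hz)
    simpa using h3
  have hDo : IsOpen {z : E | ‖φ z‖ < δ} := isOpen_lt φ.continuous.norm continuous_const
  set e₀ : OpenPartialHomeomorph M E := (e₁.symm.restrOpen {z : E | ‖φ z‖ < δ} hDo).symm with he₀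
  have he₀a : ∀ x, e₀ x = ψ₁ (c x) := he₁a
  have he₀t : e₀.target = {z | ‖φ z‖ < δ} := by
    ext z
    simp only [he₀, OpenPartialHomeomorph.symm_target, OpenPartialHomeomorph.restrOpen_source,
      OpenPartialHomeomorph.symm_source, mem_inter_iff, mem_ofPred_eq]
    exact ⟨fun h => h.2, fun h => ⟨hδt z h, h⟩⟩
  have he₀s : ∀ x, x ∈ e₀.source ↔ x ∈ B₂ ∧ ‖φ (ψ₁ (c x))‖ < δ := by
    intro x
    constructor
    · intro h
      have h1 := e₀.map_source h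
      rw [he₀t, mem_ofPred_eq, he₀a] at h1
      have h2 : x ∈ e₁.source := by
        have h3 := e₀.left_inv h
        rw [← h3]
        exact e₁.map_target (hδt _ (by rw [he₀a]; exact h1))
      exact ⟨he₁s ▸ h2, h1⟩
    · rintro ⟨h1, h2⟩
      have h3 : x ∈ e₁.source := he₁s ▸ h1
      have h4 : e₁ x ∈ e₀.target := by
        rw [he₀t, mem_ofPred_eq, he₁a]; exact h2
      have h5 := e₀.map_target h4
      have h6 : e₀.symm (e₁ x) = x := e₁.left_inv h3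
      rwa [h6] at h5
  refine ⟨e₀, ?_, δ, hδ, ?_, ?_, he₀t, ?_⟩
  · -- the chart is holomorphic
    refine OpenPartialHomeomorph.mem_maximalAtlas_of_contMDiffOn e₀ ?_ ?_
    · intro x hx
      have hx1 := ((he₀s x).1 hx).1
      have h1 : ContMDiffAt 𝓘(ℂ, E) 𝓘(ℂ, E) 1 c x :=
        (contMDiffOn_of_mem_maximalAtlas hc).contMDiffAt (c.open_source.mem_nhds (hsrcc x hx1))
      have h2 : ContDiffAt ℂ ∞ ψ₁ (c x) :=
        (contDiffOn_of_differentiableOn_complex hUo hψdiff).contDiffAt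
          (hUo.mem_nhds (hcU x hx1))
      have h3 := ((h2.of_le (by simp : (1:WithTop ℕ∞) ≤ ∞)).contMDiffAt).comp x h1
      have h4 : (e₀ : M → E) = ψ₁ ∘ c := funext he₀a
      rw [h4]
      exact h3.contMDiffWithinAt
    · intro z hz
      have hz1 : ‖φ z‖ < δ := by rw [he₀t] at hz; exact hz
      have hz2 : z ∈ e₁.target := hδt z hz1
      have hz3 : z ∈ Ψ.target := by
        rw [he₁, OpenPartialHomeomorph.trans_target] at hz2
        exact hz2.1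
      have hz4 : Ψ.symm z ∈ c.target := by
        rw [he₁, OpenPartialHomeomorph.trans_target] at hz2
        have h5 : Ψ.symm z ∈ (c.restrOpen B₂ hB₂o).target := hz2.2
        have h6 := (c.restrOpen B₂ hB₂o).map_target h5
        rw [OpenPartialHomeomorph.restrOpen_source] at h6
        have h7 := (c.restrOpen B₂ hB₂o).right_inv h5
        rw [← h7]
        exact c.map_source h6.1
      have h1 : ContMDiffAt 𝓘(ℂ, E) 𝓘(ℂ, E) 1 c.symm (Ψ.symm z) :=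
        (contMDiffOn_symm_of_mem_maximalAtlas hc).contMDiffAt (c.open_target.mem_nhds hz4)
      have h2 : ContMDiffAt 𝓘(ℂ, E) 𝓘(ℂ, E) 1 Ψ.symm z :=
        ((hΨ4 z hz3).of_le (by simp)).contMDiffAt
      have h3 := h1.comp z h2
      exact h3.contMDiffWithinAt
  · rw [he₀s]
    refine ⟨hpB₂, ?_⟩
    change ‖φ (ψ₁ z₀)‖ < δ
    rw [hψ0, map_zero, norm_zero]
    exact hδ
  · rw [he₀a]; exact hψ0
  · intro θ x hx
    obtain ⟨hx1, hx2⟩ := (he₀s x).1 hx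
    have h1 : f θ (c x) = c (ψ (θ * I) x) := by
      change c (ψ (θ * I) (c.symm (c x))) = _
      rw [c.left_inv (hsrcc x hx1)]
    have h2 : ψ₁ (c (ψ (θ * I) x)) = LE φ m (θ * I) (ψ₁ (c x)) := by
      rw [← h1]
      exact hψeq θ (c x) (hcU x hx1)
    refine ⟨(he₀s _).2 ⟨hinv₂ θ _ hx1, ?_⟩, ?_⟩
    · rw [h2, norm_LE_I]
      exact hx2
    · rw [he₀a, he₀a, h2]

end Vale.Agent.P253.CStar
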